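import Vale.Agent.P275WL.Kc
import Vale.Agent.P275S.Trunc
import Vale.Agent.P275AR.Tg
import Vale.Agent.P275AR.Pair
import Vale.Agent.P275MC.Gy
import Vale.Agent.P275KU.Fn

/-!
# P275, weights: the column filtration, the top weight, products with closed forms
-/

open scoped Manifold ContDiff Topology
open Filter Set Function TopologicalSpace CategoryTheory
open Vale.Agent.P272.K Vale.Agent.P281Z.Hg Vale.Agent.P275MC Vale.Agent.P275AR
open Vale.Agent.P275FM Vale.Agent.P275WL Vale.Agent.P275RG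
open Vale.Agent.P281Z (HolM Mf off)
open P275S (Nice FlqC sec app cls)

set_option linter.unusedSectionVars false

noncomputable section

namespace Vale.Agent.P275LE

theorem cz (k : Type) [Field k] (X : TopCat.{0}) [Nice X] : CZ k X :=
  fun _ hF _ _ hc => hF.clsOK.eq_zero_iff hc

theorem nice_mf {N : ℕ} (Y : Mf N) : Nice (TopCat.of Y.X) :=
  ⟨lcs N Y.X, inferInstanceAs (T2Space Y.X), ChartedSpace.secondCountable_of_sigmaCompact (Cm N) Y.X⟩

section abs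

variable {k : Type} [Field k] {X : TopCat.{0}} {T T' : Type} [AddCommGroup T] [Module k T]
  [AddCommGroup T'] [Module k T'] {C' : CoC k X T'} {C : CoC k X T} {f : T' →ₗ[k] T}
  {π : Module.End k T}

/-- the cycles which satisfy `InK` -/
def inK (C' : CoC k X T') (C : CoC k X T) (f : T' →ₗ[k] T) (π : Module.End k T) (q : ℤ) :
    Submodule k ((C'.P q).A ⊤) where
  carrier := {z | C'.D z = 0 ∧ InK C f π q z}
  add_mem' := by
    rintro a b ⟨h1, y, hy, h2⟩ ⟨k1, y', hy', k2⟩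
    refine ⟨by rw [Submodule.coe_add, map_add, h1, k1, add_zero], y + y', add_mem hy hy', ?_⟩
    rw [Submodule.coe_add, map_add f, map_add C.D, add_add_add_comm, map_add, h2, k2, add_zero]
  zero_mem' := ⟨map_zero _, 0, zero_mem _, by simp⟩
  smul_mem' := by
    rintro c a ⟨h1, y, hy, h2⟩
    refine ⟨by rw [Submodule.coe_smul, map_smul, h1, smul_zero], c • y,
      Submodule.smul_mem _ c hy, ?_⟩
    rw [Submodule.coe_smul, map_smul f, map_smul C.D, ← smul_add, map_smul, h2, smul_zero]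

/-- **local operators shift the filtration by their degree** -/
theorem inK_mp (cz : CZ k X) (h : Mp C' C 0 f) (hq : ∀ U, QI C' C f U) {π' : Module.End k T}
    (hπ : Pj C π) (hπ' : Pj C π') (hb : ∃ b, ∀ i, b < i → (C.P i).A ⊤ = ⊥)
    (hb' : ∃ b, ∀ i, b < i → (C'.P i).A ⊤ = ⊥) {a s : ℤ}
    (h1 : ∀ q, q < a + s → ∀ x, PZ hπ.quo q x) (h2 : ∀ q, a + s ≤ q → ∀ x, PZ hπ.sub q x)
    (k1 : ∀ q, q < a → ∀ x, PZ hπ'.quo q x) (k2 : ∀ q, a ≤ q → ∀ x, PZ hπ'.sub q x)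
    {g : T' →ₗ[k] T'} (hg : Mp C' C' s g) {q : ℤ} {z : T'} (hz : z ∈ (C'.P q).A ⊤)
    (h0 : C'.D z = 0) (hk : InK C f π' q z) : InK C f π (q + s) (g z) := by
  obtain ⟨m, rfl⟩ : ∃ m, q = a - m := ⟨a - q, by omega⟩
  rw [show a - m + s = a + s - m by omega]
  have hgz := hg.mem (a - m) (a + s - m) (by omega) ⊤ z hz
  by_contra hn
  obtain ⟨φ, p1, p2⟩ := Submodule.exists_dual_map_eq_bot_of_notMem
    (p := inK C' C f π (a + s - m)) (x := ⟨g z, hgz⟩) (fun e => hn e.2) inferInstance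
  have p3 : ∀ u ∈ inK C' C f π (a + s - m), φ u = 0 := fun u hu =>
    (Submodule.eq_bot_iff _).1 p2 _ (Submodule.mem_map_of_mem hu)
  have hφ : app ((C'.cx (a + s)).d m (m + 1)) ⊤ ((C'.P (a + s - m)).mk' φ) = 0 :=
    (CoC.d_eq_zero rfl).2 fun u hu => p3 _ ⟨C'.sq _ ⊤ u hu, -f u,
      neg_mem (h.mem _ _ (by omega) ⊤ u hu), by
        rw [map_neg, ← h.comm _ ⊤ u hu, add_neg_cancel, map_zero]⟩
  have t1 := (tw_model cz h hq hπ hb hb' (N := a + s) (a := 0) (by simpa using h1)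
    (by simpa using h2) _ hφ).2 fun u hu e1 e2 => p3 _ ⟨e1, e2⟩
  have t2 := P275WL.cls_map (hg.hom a (a + s) rfl) _ hφ ▸
    t1.comp (DerivedCategory.Q.map (hg.hom a (a + s) rfl))
  exact p1 ((tw_model cz h hq hπ' hb hb' (N := a) (a := 0) (by simpa using k1)
    (by simpa using k2) _ _).1 t2 z hz h0 hk)

end abs

variable {n : ℕ} {U : Type} [TopologicalSpace U] [ChartedSpace (Cm n) U] [T2Space U]
  [IsManifold 𝓘(ℂ, Cm n) ω U] (c : Cp n U) {z y : SF n U} {q a : ℤ}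

/-- the cosheaf complex of a compactification -/
abbrev kc : CoC ℂ (TopCat.of c.Y.X) (KC c).T := kC (ovr c.snc) (arr_ok c.snc)

/-- the forms with compact support, over the compactification -/
abbrev ac : CoC ℂ (TopCat.of c.Y.X) (SF n U) := (amC n U).push (tm (oe c).smo)

theorem rng_j : range c.j = (⋃ l, c.G l)ᶜ := by
  rw [c.emb.rng, off_eq]

theorem mp_em : Mp (ac c) (kc c) 0 (em c) :=
  mp_ext (arr_ok c.snc) (arr_top c.snc) rfl (oe c) (rng_j c)

theorem qi_em (V : Opens (TopCat.of c.Y.X)) : QI (ac c) (kc c) (em c) V :=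
  qi_ext (arr_ok c.snc) (arr_top c.snc) rfl (oe c) (rng_j c) V

theorem ac_bd : ∃ b, ∀ i, b < i → ((ac c).P i).A ⊤ = ⊥ :=
  ⟨(n + n : ℕ), fun _ hi => eq_bot_iff.2 (inf_le_right.trans (Dg_big hi).le)⟩

theorem mem_kc {u : (KC c).T} : u ∈ ((kc c).P q).A ⊤ ↔ u ∈ TD (KC c) q :=
  mem_kS.trans (and_iff_right (by
    rw [Opens.coe_top, Dia.Ov.Kc_univ]
    trivial))

theorem mem_flt_iso {N : ℕ} {x : Hc n (univ : Set U)} :
    x ∈ flt (wt c) N ↔ iso c x ∈ flt (KC_ok c).wt N :=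
  forall₂_congr fun j _ => by rw [← iso_wt, (iso c).map_eq_zero_iff]

theorem flt_iff {N : ℕ} (hz : z ∈ Ac n univ) (h0 : dd n U z = 0) :
    hc z hz h0 ∈ flt (wt c) N ↔ ∃ y, ∀ s (j : ℕ), N ≤ j → pj _ _ j ((em c z + (KC c).D y) s) = 0 := by
  rw [mem_flt_iso, (KC_ok c).mem_flt_wt]
  constructor
  · rintro ⟨u, hu, h1, h2⟩
    obtain ⟨y, hy⟩ := Coh.mk_eq.1 h2
    refine ⟨-y, fun s j hj => ?_⟩
    replace hy : em c z - u = (KC c).D y := hy.trans (Dia.tri_D_apply y)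
    rw [map_neg, ← hy, ← sub_eq_add_neg, sub_sub_cancel, ← Fam.dg_apply]
    exact congrFun (h1 j hj) s
  · rintro ⟨y, hy⟩
    have e : (KC c).tri.D (em c z + (KC c).D y) = 0 := by
      rw [Dia.tri_D_apply, map_add, D_em hz, h0, map_zero, (arr_ok c.snc).D_D, add_zero]
    refine ⟨_, e, fun j hj => funext fun s => (Fam.dg_apply _ s j).trans (hy s j hj),
      Coh.mk_eq.2 ⟨-y, ?_⟩⟩
    rw [map_neg, Dia.tri_D_apply]
    exact sub_add_cancel_left _ _

theorem em_TD (hz : z ∈ Am n q univ) : em c z ∈ TD (KC c) q :=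
  (mem_kc c).1 ((mp_em c).mem q q (add_zero q) ⊤ z hz)

/-- **the columns `≥ a` are the weights `≤ q - a`** -/
theorem col_iff (hz : z ∈ Am n q univ) (h0 : dd n U z = 0) :
    InK (kc c) (em c) (cp _ a) q z ↔ hc z hz.1 h0 ∈ flt (wt c) (q - a + 1).toNat := by
  rw [flt_iff]
  constructor
  · rintro ⟨y, hy, h⟩
    refine ⟨y, fun s j hj => ?_⟩
    have h1 : em c z + (KC c).D y ∈ TD (KC c) q := add_mem (em_TD c hz) (by
      simpa using D_TD (arr_ok c.snc) ((mem_kc c).1 hy))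
    by_cases hs : ((KC c).col s : ℤ) < a
    · exact (congrArg _ (cp_eq_zero.1 h s hs)).trans (map_zero _)
    · exact pj_ne (mem_TD.1 h1 s) (by omega)
  · rintro ⟨y, hy⟩
    refine ⟨tz _ (q - 1) y, (mem_kc c).2 (tz_mem _ _), cp_eq_zero.2 fun s hs => ?_⟩
    change (em c z + (KC c).D _) s = 0
    rw [← tz_D (arr_ok c.snc), ← tz_eq (em_TD c hz), ← map_add, tz_apply]
    by_cases h1 : q - (KC c).col s < 0
    · exact (Submodule.eq_bot_iff _).1 (Dg_neg h1) _ (pj_mem _ _)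
    · obtain ⟨j, hj⟩ := Int.eq_ofNat_of_zero_le (not_lt.1 h1)
      rw [hj]
      exact hy s j (by omega)

/-- the weights in degree `q` are at most `q` -/
theorem wt_le (hz : z ∈ Am n q univ) (h0 : dd n U z = 0) :
    hc z hz.1 h0 ∈ flt (wt c) (q + 1).toNat := by
  have := (col_iff c (a := 0) hz h0).1 ⟨0, zero_mem _, cp_eq_zero.2 fun s hs => by omega⟩
  rwa [sub_zero] at this

/-- **the weights are at most `2 n`** -/
theorem top (x : Hc n (univ : Set U)) : x ∈ flt (wt c) (2 * n + 1) := by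
  obtain ⟨z, hz, h0, rfl⟩ := hc_ind x
  refine (flt_iff c hz h0).2 ⟨0, fun s j hj => ?_⟩
  refine (Submodule.eq_bot_iff _).1 (Dg_big ?_) _ (pj_mem _ _)
  have : (KC c).n s ≤ n := Nat.sub_le _ _
  omega

theorem mp_rwd {p : ℤ} (hy : y ∈ Dg n U p) (h0 : dd n U y = 0) :
    Mp (ac c) (ac c) p ((wdL n U).flip y) := by
  have e1 : ∀ u, (wdL n U).flip y u = wd u y := fun _ => rfl
  have e2 : (ac c).D = dd n U := rfl
  refine ⟨fun i j e V u hu => ?_, fun i V u _ => ?_⟩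
  · have hu' : u ∈ Am n i (c.j ⁻¹' (V : Set c.Y.X)) := hu
    have : wd u y ∈ Am n j (c.j ⁻¹' (V : Set c.Y.X)) := ⟨wd_Ac_left hu'.1 y, e ▸ wd_Dg hu'.2 hy⟩
    rw [e1]
    exact this
  · rw [e1, e1, e2, dd_wd, h0, map_zero, add_zero]

theorem flt_rwd {p : ℕ} (hy : y ∈ Dg n U p) (h0 : dd n U y = 0) (hz : z ∈ Am n q univ)
    (h1 : dd n U z = 0) {N : ℕ} (h : hc z hz.1 h1 ∈ flt (wt c) N) {h2 h3} :
    hc (wd z y) h2 h3 ∈ flt (wt c) (N + 2 * p) := by
  have := nice_mf c.Y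
  have k1 : InK (kc c) (em c) (cp _ (q + 1 - N)) q z := (col_iff c hz h1).2 (by
    rwa [show (q - (q + 1 - N) + 1).toNat = N by omega])
  have k2 := inK_mp (cz ℂ _) (mp_em c) (qi_em c) (pj_cp _ _ (q + 1 - N - p)) (pj_cp _ _ (q + 1 - N))
    (kC_bd _ _) (ac_bd c) (a := (n + n : ℕ) - q + N) (s := p)
    (fun _ e => (std_arr c.snc).pz_quo _ (by omega))
    (fun _ e => (std_arr c.snc).pz_sub _ (by omega))
    (fun _ e => (std_arr c.snc).pz_quo _ (by omega))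
    (fun _ e => (std_arr c.snc).pz_sub _ (by omega)) (mp_rwd c hy h0) hz h1 k1
  have k3 := (col_iff c (z := wd z y) ⟨h2, wd_Dg hz.2 hy⟩ h3).1 k2
  rwa [show (q + p - (q + 1 - N - p) + 1).toNat = N + 2 * p by omega] at k3

theorem prH_flt (k : ℤ) {N : ℕ} {x : Hc n (univ : Set U)} (h : x ∈ flt (wt c) N) :
    prH n univ k x ∈ flt (wt c) N := (grd_deg c k).low.map_flt (gr_wt c) (by omega) h

theorem hc_smul (t : ℂ) {w : SF n U} (e : w = t • z) {hz : z ∈ Ac n univ} {h0} (hw h1) :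
    hc w hw h1 = t • hc z hz h0 := by
  subst e
  exact Coh.mk_smul t (z := (⟨z, hz⟩ : Ac n (univ : Set U))) _ _

theorem wH_hc (v : Zf n U) (hz : z ∈ Ac n univ) (h0 : dd n U z = 0) :
    ∃ h1, wH univ v (hc z hz h0) = hc (wd v.1 z) (wd_Ac _ hz) h1 :=
  ⟨wd_mem_Zf v ⟨z, h0⟩, rfl⟩

theorem flt_wH {p : ℕ} (v : Zf n U) (hv : v.1 ∈ Dg n U p) (hz : z ∈ Am n q univ)
    (h0 : dd n U z = 0) {N : ℕ} (h : hc z hz.1 h0 ∈ flt (wt c) N) :
    wH univ v (hc z hz.1 h0) ∈ flt (wt c) (N + 2 * p) := by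
  have h1 : dd n U v.1 = 0 := v.2
  have k2 : wd z v.1 ∈ Ac n univ := wd_Ac_left hz.1 _
  have k3 : dd n U (wd z v.1) = 0 := by rw [dd_wd, h0, wd_zero, zero_add, h1, map_zero]
  obtain ⟨h2, e⟩ := wH_hc v hz.1 h0
  rw [e, hc_smul _ (P275KU.wd_comm hv hz.2) (hz := k2) (h0 := k3)]
  exact Submodule.smul_mem _ _ (flt_rwd c hv h1 hz h0 h)

/-- **the product with a closed form of degree `p` raises the weights by at most `2 p`** -/
theorem s2 {p : ℕ} (v : Zf n U) (hv : v.1 ∈ Dg n U p) {N : ℕ} {x : Hc n (univ : Set U)}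
    (h : x ∈ flt (wt c) N) : wH univ v x ∈ flt (wt c) (N + 2 * p) := by
  rw [← prH_sum x, map_sum]
  refine sum_mem fun k _ => ?_
  obtain ⟨z, hz, h0, rfl⟩ := hc_ind x
  have e : prH n univ k (hc z hz h0) = hc (pj n U k z) (pj_Am _ hz).1 (dd_pj h0 _) := rfl
  have k1 := prH_flt c k h
  rw [e] at k1 ⊢
  exact flt_wH c v hv (pj_Am _ hz) _ k1

theorem low_wH {p : ℕ} (v : Zf n U) (hv : v.1 ∈ Dg n U p) :
    Low (wt c) (wt c) (2 * p) (wH univ v) :=
  Low.of_flt (gr_wt c) fun _ _ _ e h => flt_mono (by omega) (s2 c v hv h)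

theorem s2_two (v : Zf n U) (hv : v.1 ∈ Dg n U 2) {N : ℕ} {x : Hc n (univ : Set U)}
    (h : x ∈ flt (wt c) N) : wH univ v x ∈ flt (wt c) (N + 4) := s2 c (p := 2) v hv h

/-- the same for cohomology classes -/
theorem s2_hm [SecondCountableTopology U] {p : ℕ} {α : P275S.H ℂ (TopCat.of U)}
    (hα : α ∈ P275S.Hd ℂ (TopCat.of U) p) {N : ℕ} {x : Hc n (univ : Set U)}
    (h : x ∈ flt (wt c) N) : hm n univ α x ∈ flt (wt c) (N + 2 * p) := by
  obtain ⟨w, hw, h0, rfl⟩ := cl_surj (d := n) hα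
  rw [hm_cl hw]
  exact s2 c _ hw h

end Vale.Agent.P275LE
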